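import Mathlib

open MeasureTheory Set Filter Topology ProbabilityTheory
open scoped ENNReal NNReal

namespace Vale.Agent.P074

/-- The quantile map of a probability density on the line. -/
theorem exists_quantile (α : ℝ → ℝ≥0∞) (hα : Measurable α) (h1 : ∫⁻ x, α x = 1) :
    ∃ X : ℝ → ℝ, MonotoneOn X (Ioo 0 1) ∧
      (volume.restrict (Ioo (0:ℝ) 1)).map X = volume.withDensity α ∧
      ∀ᵐ t ∂(volume.restrict (Ioo (0:ℝ) 1)),
        α (X t) ≠ 0 ∧ α (X t) ≠ ∞ ∧ HasDerivAt X ((α (X t)).toReal)⁻¹ t := by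
  set P : Measure ℝ := volume.withDensity α with hP
  have : IsProbabilityMeasure P := ⟨by simp [hP, h1]⟩
  set F : ℝ → ℝ := fun x => cdf P x with hF
  have hFmono : Monotone F := monotone_cdf P
  set X : ℝ → ℝ := fun t => sInf {x | t ≤ F x} with hX
  have hne : ∀ t ∈ Ioo (0:ℝ) 1, {x | t ≤ F x}.Nonempty := by
    intro t ht
    have := (tendsto_cdf_atTop P).eventually (lt_mem_nhds ht.2)
    obtain ⟨x, hx⟩ := this.exists
    exact ⟨x, hx.le⟩
  have hbdd : ∀ t ∈ Ioo (0:ℝ) 1, BddBelow {x | t ≤ F x} := by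
    intro t ht
    have := (tendsto_cdf_atBot P).eventually (gt_mem_nhds ht.1)
    obtain ⟨x, hx⟩ := this.exists
    refine ⟨x, fun y hy => ?_⟩
    by_contra hlt
    push Not at hlt
    have : F y ≤ F x := hFmono hlt.le
    have h2 : t ≤ F y := hy
    have h3 : F x < t := hx
    linarith
  have hle : ∀ t ∈ Ioo (0:ℝ) 1, t ≤ F (X t) := by
    intro t ht
    have hc : ContinuousWithinAt F (Ioi (X t)) (X t) :=
      ((cdf P).right_continuous (X t)).mono Ioi_subset_Ici_self
    refine ge_of_tendsto hc ?_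
    filter_upwards [self_mem_nhdsWithin] with y hy
    obtain ⟨z, hz, hzy⟩ := exists_lt_of_csInf_lt (hne t ht) hy
    exact le_trans hz (hFmono hzy.le)
  have hgal : ∀ t ∈ Ioo (0:ℝ) 1, ∀ x, X t ≤ x ↔ t ≤ F x := by
    intro t ht x
    constructor
    · intro h
      exact (hle t ht).trans (hFmono h)
    · intro h
      exact csInf_le (hbdd t ht) h
  have hmono : MonotoneOn X (Ioo 0 1) := by
    intro s hs t ht hst
    exact (hgal s hs _).2 (hst.trans (hle t ht))
  have hFX : ∀ t ∈ Ioo (0:ℝ) 1, F (X t) = t := by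
    intro t ht
    refine le_antisymm ?_ (hle t ht)
    have h0 : (cdf P).measure {X t} = 0 := by
      rw [measure_cdf]
      exact withDensity_absolutelyContinuous _ _ (by simp)
    rw [StieltjesFunction.measure_singleton, ENNReal.ofReal_eq_zero] at h0
    have h2 : Function.leftLim (cdf P) (X t) ≤ t := by
      refine le_of_tendsto ((cdf P).mono.tendsto_leftLim (X t)) ?_
      filter_upwards [self_mem_nhdsWithin] with y hy
      by_contra hlt
      push Not at hlt
      have := (hgal t ht y).2 hlt.le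
      exact absurd hy (not_lt.2 this)
    change cdf P (X t) ≤ t
    linarith
  have hae : AEMeasurable X (volume.restrict (Ioo (0:ℝ) 1)) :=
    aemeasurable_restrict_of_monotoneOn measurableSet_Ioo hmono
  have hmap : (volume.restrict (Ioo (0:ℝ) 1)).map X = P := by
    refine Measure.ext_of_Iic _ _ fun x => ?_
    rw [Measure.map_apply_of_aemeasurable hae measurableSet_Iic,
      Measure.restrict_apply' measurableSet_Ioo, ← ofReal_cdf]
    have hset : X ⁻¹' Iic x ∩ Ioo 0 1 = Iic (F x) ∩ Ioo 0 1 := by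
      ext t
      simp only [mem_inter_iff, mem_preimage, mem_Iic]
      constructor
      · rintro ⟨h, ht⟩
        exact ⟨(hgal t ht x).1 h, ht⟩
      · rintro ⟨h, ht⟩
        exact ⟨(hgal t ht x).2 h, ht⟩
    rw [hset]
    have h0 : 0 ≤ F x := cdf_nonneg P x
    have h1' : F x ≤ 1 := cdf_le_one P x
    apply le_antisymm
    · calc volume (Iic (F x) ∩ Ioo 0 1) ≤ volume (Icc 0 (F x)) :=
            measure_mono fun t ht => ⟨ht.2.1.le, ht.1⟩
        _ = ENNReal.ofReal (cdf P x) := by simp [hF]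
    · calc ENNReal.ofReal (cdf P x) = volume (Ioo 0 (F x)) := by simp [hF]
        _ ≤ volume (Iic (F x) ∩ Ioo 0 1) :=
            measure_mono fun t ht => ⟨ht.2.le, ht.1, ht.2.trans_le h1'⟩
  refine ⟨X, hmono, hmap, ?_⟩
  have hgood : ∀ᵐ x ∂P, α x ≠ 0 ∧ α x ≠ ∞ ∧ HasDerivAt F (α x).toReal x := by
    have hac : P ≪ volume := withDensity_absolutelyContinuous _ _
    have e1 : ∀ᵐ x ∂P, α x ≠ 0 := by
      rw [hP, ae_withDensity_iff hα]
      exact Eventually.of_forall fun x hx => hx
    have e2 : ∀ᵐ x ∂(volume : Measure ℝ), α x < ∞ := ae_lt_top hα (by simp [h1])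
    have e3 := (cdf P).ae_hasDerivAt
    rw [measure_cdf] at e3
    have e4 : P.rnDeriv volume =ᵐ[volume] α := Measure.rnDeriv_withDensity volume hα
    filter_upwards [e1, hac.ae_le e2, hac.ae_le e3, hac.ae_le e4] with x a b c d
    refine ⟨a, ne_of_lt b, ?_⟩
    have c' : HasDerivAt (cdf P) (P.rnDeriv volume x).toReal x := c
    have d' : P.rnDeriv volume x = α x := d
    rw [d'] at c'
    exact c'
  rw [← hmap] at hgood
  filter_upwards [ae_of_ae_map hae hgood, ae_restrict_mem measurableSet_Ioo] with t ht htI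
  obtain ⟨ha, hb, hc⟩ := ht
  refine ⟨ha, hb, ?_⟩
  have hpos : 0 < (α (X t)).toReal := ENNReal.toReal_pos ha hb
  refine HasDerivAt.of_local_left_inverse ?_ hc hpos.ne' ?_
  · rw [ContinuousAt, tendsto_order]
    constructor
    · intro a hlt
      have h2 : F a < t := by
        by_contra h
        push Not at h
        exact absurd ((hgal t htI a).2 h) (not_le.2 hlt)
      filter_upwards [Ioo_mem_nhds htI.1 htI.2, lt_mem_nhds h2] with s hs hs2
      by_contra h
      push Not at h
      exact absurd ((hgal s hs a).1 h) (not_le.2 hs2)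
    · intro b hlt
      have hsl := hc.tendsto_slope_zero_right
      have h3 : ∀ᶠ y in 𝓝[>] (0:ℝ), 0 < y⁻¹ • (F (X t + y) - F (X t)) :=
        hsl.eventually (lt_mem_nhds hpos)
      have h4 : ∀ᶠ y in 𝓝[>] (0:ℝ), y < b - X t :=
        mem_nhdsWithin_of_mem_nhds (gt_mem_nhds (by linarith))
      obtain ⟨y, hy1, hy2, hy3⟩ := (h3.and (h4.and self_mem_nhdsWithin)).exists
      have hy3' : 0 < y := hy3
      have h5 : t < F (X t + y) := by
        rw [smul_eq_mul] at hy1
        have := (mul_pos_iff_of_pos_left (inv_pos.2 hy3')).1 hy1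
        rw [hFX t htI] at this
        linarith
      filter_upwards [Ioo_mem_nhds htI.1 htI.2, gt_mem_nhds h5] with s hs hs2
      have := (hgal s hs (X t + y)).2 hs2.le
      linarith
  · filter_upwards [Ioo_mem_nhds htI.1 htI.2] with s hs
    exact hFX s hs

end Vale.Agent.P074
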